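import Vale.Agent.P032.S5.H360.Silent

/-!
# P032: antipodal letters and a circle without `{g, i}`

`Irr.no_fill'` : `Irr.no_fill` with the hypothesis that the circles about points near the partner
contain no point with palette inside `{g, i}`.
-/

open Set Filter Topology Metric

noncomputable section

namespace Vale.Agent.P032.Six

variable {k : ℕ} {U : Fin k → Set ℂ} {T : ℂ → Set (Fin k)}

namespace Irr

/-- **Rule (N)**, palette form. -/
theorem no_fill' (h : Irr U T) {z y0 y1 y2 : ℂ} {g i : Fin k} {P1 P2 : Set (Fin k)}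
    (hy0 : dist y0 z = 1)
    (hfr : ∃ᶠ u in 𝓝 y0, dist u z ≠ 1 ∧ ∀ w, dist w u = 1 → ¬ (T w ⊆ {g, i}))
    (hy1 : dist y1 z = 1) (hy2 : y1 + y2 = 2 * z)
    (hJ1 : ∀ᶠ q in 𝓝[sphere z 1] y1, P1 ⊆ Pal U q)
    (hJ2 : ∀ᶠ q in 𝓝[sphere z 1] y2, P2 ⊆ Pal U q) : ¬ T z ⊆ P1 ∪ P2 ∪ {g, i} := by
  intro hK
  -- the non perpendicular case
  have main : ∀ y1 y2 : ℂ, dist y1 z = 1 → y1 + y2 = 2 * z →
      (∀ᶠ q in 𝓝[sphere z 1] y1, P1 ⊆ Pal U q) → (∀ᶠ q in 𝓝[sphere z 1] y2, P2 ⊆ Pal U q) →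
      dt360 (Complex.I * (y1 - z)) (z - y0) ≠ 0 → False := by
    intro y1 y2 hy1 hy2 hJ1 hJ2 hd
    obtain ⟨δ, hδ, hball⟩ := Metric.eventually_nhds_iff.1 (h.line_sub hy1 hy2 hJ1 hJ2 hK)
    obtain ⟨u, ⟨hug, hui⟩, hu⟩ := (hfr.and_eventually (meets_line hy0 hd hδ)).exists
    have hzu : dist z u ≠ 1 := fun h1 => hug (by rw [dist_comm]; exact h1)
    obtain ⟨t, ht, ht0, htu⟩ := hu hzu
    have h1 := hball (by rw [Real.dist_eq, sub_zero]; exact ht) ht0
    exact hui _ htu h1
  by_cases hd : dt360 (Complex.I * (y1 - z)) (z - y0) = 0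
  · set n : ℂ := y1 - z with hn
    have hn1 : ‖n‖ = 1 := by rw [hn, ← dist_eq_norm]; exact hy1
    have hnn : dt360 n (z - y0) ≠ 0 := by
      intro h0
      have hz1 : (z - y0).re ^ 2 + (z - y0).im ^ 2 = 1 := by
        have h3 : ‖z - y0‖ ^ 2 = 1 := by rw [← dist_eq_norm, dist_comm, hy0]; norm_num
        rw [Complex.sq_norm, Complex.normSq_apply] at h3
        linarith
      have ha : n.re ^ 2 + n.im ^ 2 = 1 := by
        have h3 : ‖n‖ ^ 2 = 1 := by rw [hn1]; norm_num
        rw [Complex.sq_norm, Complex.normSq_apply] at h3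
        linarith
      have e1 : dt360 (Complex.I * n) (z - y0) = -n.im * (z - y0).re + n.re * (z - y0).im := by
        simp [dt360]
      rw [e1] at hd
      rw [dt360] at h0
      have : (n.re ^ 2 + n.im ^ 2) * ((z - y0).re ^ 2 + (z - y0).im ^ 2) = 0 := by
        have e2 : (n.re ^ 2 + n.im ^ 2) * ((z - y0).re ^ 2 + (z - y0).im ^ 2) =
          (n.re * (z - y0).re + n.im * (z - y0).im) ^ 2 +
            (-n.im * (z - y0).re + n.re * (z - y0).im) ^ 2 := by ring
        rw [e2, h0, hd]; ring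
      rw [ha, hz1] at this
      norm_num at this
    -- rotate
    let r : ℝ → ℂ := fun s => n * ((Real.cos s : ℝ) + (Real.sin s : ℝ) * Complex.I)
    have hr : Continuous r := by
      simp only [r]
      fun_prop
    have hrn : ∀ s, ‖r s‖ = 1 := by
      intro s
      simp only [r]
      rw [norm_mul, hn1, one_mul, Complex.norm_add_mul_I, Real.cos_sq_add_sin_sq, Real.sqrt_one]
    have hr0 : r 0 = n := by simp [r]
    have t1 : Tendsto (fun s => z + r s) (𝓝[≠] 0) (𝓝[sphere z 1] y1) := by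
      refine tendsto_nhdsWithin_iff.2 ⟨?_, Eventually.of_forall fun s => ?_⟩
      · have hc : Continuous fun s => z + r s := continuous_const.add hr
        have h1 := (hc.tendsto 0).mono_left (nhdsWithin_le_nhds (s := {(0 : ℝ)}ᶜ))
        have e : z + r 0 = y1 := by rw [hr0, hn]; ring
        rwa [e] at h1
      · rw [mem_sphere, dist_eq_norm, add_sub_cancel_left]; exact hrn s
    have t2 : Tendsto (fun s => z - r s) (𝓝[≠] 0) (𝓝[sphere z 1] y2) := by
      refine tendsto_nhdsWithin_iff.2 ⟨?_, Eventually.of_forall fun s => ?_⟩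
      · have hc : Continuous fun s => z - r s := continuous_const.sub hr
        have h1 := (hc.tendsto 0).mono_left (nhdsWithin_le_nhds (s := {(0 : ℝ)}ᶜ))
        have e : z - r 0 = y2 := by rw [hr0, hn]; linear_combination -hy2
        rwa [e] at h1
      · rw [mem_sphere, dist_eq_norm]
        have e : z - r s - z = -r s := by ring
        rw [e, norm_neg]; exact hrn s
    have hsin : ∀ᶠ s : ℝ in 𝓝[≠] 0, Real.sin s ≠ 0 := by
      have h1 : ∀ᶠ s : ℝ in 𝓝[≠] 0, s ∈ Ioo (-Real.pi) Real.pi :=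
        mem_nhdsWithin_of_mem_nhds (Ioo_mem_nhds (by linarith [Real.pi_pos]) Real.pi_pos)
      filter_upwards [h1, self_mem_nhdsWithin] with s hs hs0 hsin
      exact hs0 ((Real.sin_eq_zero_iff_of_lt_of_lt hs.1 hs.2).1 hsin)
    obtain ⟨s, hs1, hs2, hs3⟩ := ((t1.eventually (eventually_eventually_nhdsWithin.2 hJ1)).and
      ((t2.eventually (eventually_eventually_nhdsWithin.2 hJ2)).and hsin)).exists
    refine main (z + r s) (z - r s) ?_ (by ring) hs1 hs2 ?_
    · rw [dist_eq_norm, add_sub_cancel_left]; exact hrn s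
    · rw [add_sub_cancel_left]
      simp only [r]
      rw [dt360_rot, hd, mul_zero, zero_sub]
      exact neg_ne_zero.2 (mul_ne_zero hs3 hnn)
  · exact main y1 y2 hy1 hy2 hJ1 hJ2 hd

end Irr

end Vale.Agent.P032.Six
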